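import Vale.Agent.P181.TL.Defs

set_option autoImplicit false

/-!
# P181, TL, block T7b: `CoreW` from `CoreN` (helper266)
-/

namespace Vale.Agent.P181.TL.H266

open Vale.Agent.P181.TL
open Vale.Agent.P181.SZ

theorem choose_le_real (n a : ℕ) (ha : 0 < a) :
    ((n.choose a : ℕ) : ℝ) ≤ (3 * n / a) ^ a := by
  have h1 : ((n.choose a : ℕ) : ℝ) ≤ (n : ℝ) ^ a / (a.factorial : ℝ) :=
    Nat.choose_le_pow_div a n
  have h2 : (a : ℝ) ^ a / (a.factorial : ℝ) ≤ Real.exp a :=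
    Real.pow_div_factorial_le_exp a (by positivity) a
  have h3 : Real.exp a ≤ 3 ^ a := by
    have h4 : Real.exp 1 ≤ 3 := by
      have := Real.exp_one_lt_d9
      linarith
    calc Real.exp a = Real.exp 1 ^ a := by
          rw [← Real.exp_nat_mul, mul_one]
      _ ≤ 3 ^ a := pow_le_pow_left₀ (Real.exp_pos 1).le h4 a
  have ha' : (0 : ℝ) < a := by exact_mod_cast ha
  have hf : (0 : ℝ) < a.factorial := by exact_mod_cast a.factorial_pos
  have h5 : (1 : ℝ) / a.factorial ≤ 3 ^ a / (a : ℝ) ^ a := by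
    rw [div_le_div_iff₀ hf (by positivity), one_mul]
    have h6 := h2.trans h3
    rw [div_le_iff₀ hf] at h6
    exact h6
  calc ((n.choose a : ℕ) : ℝ) ≤ (n : ℝ) ^ a / (a.factorial : ℝ) := h1
    _ = (n : ℝ) ^ a * (1 / (a.factorial : ℝ)) := by ring
    _ ≤ (n : ℝ) ^ a * (3 ^ a / (a : ℝ) ^ a) := by gcongr
    _ = (3 * n / a) ^ a := by rw [div_pow, mul_pow]; ring

theorem bin (a b t m q : ℕ) (ha : 0 < a) (hq : 5 ≤ q) (hm : 1 ≤ m) (hbt : b ≤ t + a)
    (ht : 10 ^ 6 * (m * q ^ 2) ^ 2 * a ≤ t) :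
    (a + b).choose a * (a + t - 1).choose t ≤ (t / a / q / (2 * m * q)) ^ ((q - 1) * a) ∧
      1 ≤ t / a / q / (2 * m * q) := by
  have hX : t / a / q / (2 * m * q) = t / a / (2 * m * q ^ 2) := by
    rw [Nat.div_div_eq_div_mul]
    congr 1
    ring
  rw [hX]
  obtain ⟨Q, hQ⟩ : ∃ Q, Q = 2 * m * q ^ 2 := ⟨_, rfl⟩
  obtain ⟨y, hy⟩ : ∃ y, y = t / a := ⟨_, rfl⟩
  obtain ⟨X, hXd⟩ : ∃ X, X = y / Q := ⟨_, rfl⟩
  rw [← hQ, ← hy, ← hXd]
  have hQ1 : 1 ≤ Q := by
    rw [hQ]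
    have : 1 ≤ q ^ 2 := Nat.one_le_pow _ _ (by omega)
    nlinarith
  have hy1 : 250000 * Q ^ 2 ≤ y := by
    rw [hy, Nat.le_div_iff_mul_le ha]
    have e : 250000 * Q ^ 2 * a = 10 ^ 6 * (m * q ^ 2) ^ 2 * a := by
      rw [hQ]; ring
    rw [e]
    exact ht
  have hX1 : 250000 * Q ≤ X := by
    rw [hXd, Nat.le_div_iff_mul_le (by omega)]
    calc 250000 * Q * Q = 250000 * Q ^ 2 := by ring
      _ ≤ y := hy1
  have hyX : y + 1 ≤ 2 * Q * X := by
    have h1 : y < Q * (X + 1) := by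
      rw [hXd]
      have := Nat.lt_mul_div_succ y (show 0 < Q by omega)
      exact this
    have h2 : 1 ≤ X := by nlinarith
    nlinarith
  refine ⟨?_, by nlinarith⟩
  have ha' : (0 : ℝ) < a := by exact_mod_cast ha
  have hta : (t : ℝ) / a ≤ 2 * Q * X := by
    have h1 : t < a * (y + 1) := by
      rw [hy]
      exact Nat.lt_mul_div_succ t ha
    rw [div_le_iff₀ ha']
    have h2 : (t : ℝ) < a * (y + 1) := by exact_mod_cast h1
    have h3 : (y : ℝ) + 1 ≤ 2 * Q * X := by exact_mod_cast hyX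
    nlinarith
  have hta2 : 2 * a ≤ t := by
    have : 2 * a ≤ 10 ^ 6 * (m * q ^ 2) ^ 2 * a := by
      apply Nat.mul_le_mul_right
      have h1 : 1 ≤ (m * q ^ 2) ^ 2 := Nat.one_le_pow _ _ (by
        have : 1 ≤ q ^ 2 := Nat.one_le_pow _ _ (by omega)
        nlinarith)
      nlinarith
    omega
  have c1 : (((a + b).choose a : ℕ) : ℝ) ≤ (6 * (t / a)) ^ a := by
    refine (choose_le_real (a + b) a ha).trans ?_
    apply pow_le_pow_left₀ (by positivity)
    rw [div_le_iff₀ ha']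
    have h1 : ((a + b : ℕ) : ℝ) ≤ 2 * t := by exact_mod_cast (by omega : a + b ≤ 2 * t)
    calc 3 * ((a + b : ℕ) : ℝ) ≤ 3 * (2 * t) := by gcongr
      _ = 6 * (t / a) * a := by field_simp; ring
  have c2 : (((a + t - 1).choose t : ℕ) : ℝ) ≤ (6 * (t / a)) ^ a := by
    have h0 : (a + t - 1).choose t ≤ (a + t).choose a := by
      calc (a + t - 1).choose t ≤ (a + t).choose t := Nat.choose_le_choose t (by omega)
        _ = (a + t).choose a := by
            rw [add_comm a t, Nat.choose_symm_add]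
    refine (show (((a + t - 1).choose t : ℕ) : ℝ) ≤ (((a + t).choose a : ℕ) : ℝ) by
      exact_mod_cast h0).trans ((choose_le_real (a + t) a ha).trans ?_)
    apply pow_le_pow_left₀ (by positivity)
    rw [div_le_iff₀ ha']
    have h1 : ((a + t : ℕ) : ℝ) ≤ 2 * t := by exact_mod_cast (by omega : a + t ≤ 2 * t)
    calc 3 * ((a + t : ℕ) : ℝ) ≤ 3 * (2 * t) := by gcongr
      _ = 6 * (t / a) * a := by field_simp; ring
  have hXr : (250000 : ℝ) * Q ≤ X := by exact_mod_cast hX1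
  have hQr : (1 : ℝ) ≤ Q := by exact_mod_cast hQ1
  have key : (6 * ((t : ℝ) / a)) * (6 * ((t : ℝ) / a)) ≤ (X : ℝ) ^ 4 := by
    have h1 : 6 * ((t : ℝ) / a) ≤ 12 * Q * X := by linarith
    have h2 : (0 : ℝ) ≤ 6 * ((t : ℝ) / a) := by positivity
    have h3 : 12 * (Q : ℝ) * X ≤ (X : ℝ) * X := by nlinarith
    have h4 : 6 * ((t : ℝ) / a) ≤ (X : ℝ) * X := h1.trans h3
    calc (6 * ((t : ℝ) / a)) * (6 * ((t : ℝ) / a)) ≤ ((X : ℝ) * X) * ((X : ℝ) * X) :=
          mul_le_mul h4 h4 h2 (by positivity)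
      _ = (X : ℝ) ^ 4 := by ring
  have hfin : (((a + b).choose a * (a + t - 1).choose t : ℕ) : ℝ) ≤ ((X ^ (4 * a) : ℕ) : ℝ) := by
    push_cast
    calc (((a + b).choose a : ℕ) : ℝ) * (((a + t - 1).choose t : ℕ) : ℝ)
        ≤ (6 * ((t : ℝ) / a)) ^ a * (6 * ((t : ℝ) / a)) ^ a :=
          mul_le_mul c1 c2 (by positivity) (by positivity)
      _ = ((6 * ((t : ℝ) / a)) * (6 * ((t : ℝ) / a))) ^ a := (mul_pow _ _ a).symm
      _ ≤ ((X : ℝ) ^ 4) ^ a := pow_le_pow_left₀ (by positivity) key a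
      _ = (X : ℝ) ^ (4 * a) := by rw [pow_mul]
  have hn : (a + b).choose a * (a + t - 1).choose t ≤ X ^ (4 * a) := by exact_mod_cast hfin
  refine hn.trans (Nat.pow_le_pow_right (by nlinarith) ?_)
  exact Nat.mul_le_mul_right a (by omega)

theorem ar1 (a q m t A B : ℕ) (hq5 : 5 ≤ q) (hm : 8 * q ≤ m) (ha : 0 < a) (h40 : 40 * q ≤ a)
    (hAqa : A * q * a ≤ t) (hBm : B * m ≤ a) (hqt : 16 * t < (q - 4) * a ^ 2) :
    2 * (2 * A + q + q * B + q + 1) ≤ a := by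
  have hA16 : 16 * A ≤ a := by
    by_contra hcon
    push Not at hcon
    have h1 : a * (q * a) < 16 * A * (q * a) :=
      Nat.mul_lt_mul_of_pos_right hcon (by positivity)
    have h2 : (q - 4) * a ^ 2 ≤ q * a ^ 2 := Nat.mul_le_mul_right _ (by omega)
    nlinarith
  have hqB : 8 * (q * B) ≤ a := by
    calc 8 * (q * B) = 8 * q * B := by ring
      _ ≤ m * B := Nat.mul_le_mul_right _ hm
      _ = B * m := by ring
      _ ≤ a := hBm
  omega

theorem ar2 (a q m t w l A B : ℕ) (hm1 : 1 ≤ m) (hlw : l + t ≤ w) (h400 : 400 * t ≤ l)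
    (hAqa : A * q * a ≤ t) (hBm : B * m ≤ a) (hm2 : 4 * q ^ 2 * a ^ 2 ≤ m * l)
    (h24 : 24 * q ^ 2 * a ≤ l) :
    q * a * (2 * A + q + q * B + q) + 4 * (2 * A + q) * q * a ≤ w := by
  have f1 : q * a * (2 * A + q + q * B + q) + 4 * (2 * A + q) * q * a =
      10 * (A * q * a) + 6 * (q ^ 2 * a) + q ^ 2 * a * B := by ring
  have f2 : 4 * (q ^ 2 * a * B) ≤ l := by
    have g1 : m * (4 * (q ^ 2 * a * B)) ≤ m * l := by
      calc m * (4 * (q ^ 2 * a * B)) = 4 * q ^ 2 * a * (B * m) := by ring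
        _ ≤ 4 * q ^ 2 * a * a := Nat.mul_le_mul_left _ hBm
        _ = 4 * q ^ 2 * a ^ 2 := by ring
        _ ≤ m * l := hm2
    exact Nat.le_of_mul_le_mul_left g1 (by omega)
  have f3 : 24 * (q ^ 2 * a) ≤ l := by
    calc 24 * (q ^ 2 * a) = 24 * q ^ 2 * a := by ring
      _ ≤ l := h24
  rw [f1]
  clear f1 hm2 h24
  generalize q ^ 2 * a * B = u at *
  generalize q ^ 2 * a = v at *
  generalize A * q * a = z at *
  omega

theorem ar3 (a b q t w : ℕ) (hq5 : 5 ≤ q) (ha : 0 < a) (h200 : 200 ≤ a)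
    (hlw : 401 * t ≤ w) (h4w : 4 * w ≤ a * b) (h100 : 100 * a ≤ b)
    (hqt2 : (q - 5) * a ^ 2 ≤ 16 * t) : 3 * q * a + 3 * (w / a) + 3 ≤ b := by
  have g2 : 4 * (w / a) ≤ b := by
    have g1 : w / a * a ≤ w := Nat.div_mul_le_self _ _
    by_contra hcon
    push Not at hcon
    have := Nat.mul_lt_mul_of_pos_right hcon ha
    nlinarith
  have g3 : 1600 * t ≤ a * b := by
    generalize a * b = u at *
    omega
  have g4 : 100 * ((q - 5) * a) ≤ b := by
    have h1 : a * (100 * ((q - 5) * a)) ≤ a * b := by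
      calc a * (100 * ((q - 5) * a)) = 100 * ((q - 5) * a ^ 2) := by ring
        _ ≤ 100 * (16 * t) := Nat.mul_le_mul_left _ hqt2
        _ = 1600 * t := by ring
        _ ≤ a * b := g3
    exact Nat.le_of_mul_le_mul_left h1 ha
  have g5 : q * a = (q - 5) * a + 5 * a := by
    rw [← add_mul]
    congr 1
    omega
  have g6 : 3 * q * a = 3 * ((q - 5) * a) + 15 * a := by
    rw [mul_assoc, g5]; ring
  rw [g6]
  generalize (q - 5) * a = u at *
  generalize w / a = v at *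
  clear g5 g6 g3 hqt2 h4w
  omega

/-- **(T7b)** -/
theorem coreW (hN : CoreN) : CoreW := by
  intro a b k q m lam hanti hsum ha hq hm hm2 h24 h40 h400 h4w h100 hbt hbig
  have hq5 : 5 ≤ q := by rw [hq]; exact Nat.le_add_right _ _
  have hm1 : 1 ≤ m := by omega
  obtain ⟨hbin, hX1⟩ := bin a b (dn2 lam) m q ha hq5 hm1 hbt hbig
  have hw : ∑ i, tl lam i = lam 1 + dn2 lam := by
    rw [Fin.sum_univ_succ]
    rfl
  have hAqa : dn2 lam / a / q * q * a ≤ dn2 lam := by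
    calc dn2 lam / a / q * q * a ≤ dn2 lam / a * a :=
          Nat.mul_le_mul_right _ (Nat.div_mul_le_self _ _)
      _ ≤ dn2 lam := Nat.div_mul_le_self _ _
  have hBm : a / m * m ≤ a := Nat.div_mul_le_self _ _
  have hqt : 16 * dn2 lam < (q - 4) * a ^ 2 := by
    have h1 : 16 * dn2 lam < a ^ 2 * (16 * dn2 lam / a ^ 2 + 1) :=
      Nat.lt_mul_div_succ _ (by positivity)
    have h2 : 16 * dn2 lam / a ^ 2 + 1 = q - 4 := by
      rw [hq]
      generalize 16 * dn2 lam / a ^ 2 = u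
      omega
    rw [h2, mul_comm (a ^ 2)] at h1
    exact h1
  have hqt2 : (q - 5) * a ^ 2 ≤ 16 * dn2 lam := by
    have h2 : q - 5 = 16 * dn2 lam / a ^ 2 := by
      rw [hq]
      generalize 16 * dn2 lam / a ^ 2 = u
      omega
    rw [h2]
    exact Nat.div_mul_le_self _ _
  have e1 := ar1 a q m (dn2 lam) (dn2 lam / a / q) (a / m) hq5 hm ha h40 hAqa hBm hqt
  have e2 := ar2 a q m (dn2 lam) (∑ i, tl lam i) (lam 1) (dn2 lam / a / q) (a / m) hm1
    hw.ge h400 hAqa hBm hm2 h24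
  have e3 := ar3 a b q (dn2 lam) (∑ i, tl lam i) hq5 ha (by omega) (by rw [hw]; omega) h4w h100
    hqt2
  exact hN a b k q m (dn2 lam / a / q / (2 * m * q)) lam hsum ha (by omega) hm1 hX1
    (Nat.mul_div_le _ _) e1 e2 e3 hbin

end Vale.Agent.P181.TL.H266
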